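import Mathlib

namespace Vale.Agent.P037

/-- The set of ordered copies of `H` in `A`. -/
def copies {k n : ℕ} (H : Fin k → Fin k → Bool) (A : Fin n → Fin n → Bool) :
    Set ((Fin k → Fin n) × (Fin k → Fin n)) :=
  {p | StrictMono p.1 ∧ StrictMono p.2 ∧ ∀ i j, A (p.1 i) (p.2 j) = H i j}

/-- The number of ordered copies of `H` in `A`. -/
noncomputable def numCopies {k n : ℕ} (H : Fin k → Fin k → Bool) (A : Fin n → Fin n → Bool) : ℕ :=
  (copies H A).ncard

/-- The number of entries where two matrices differ. -/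
def numDiff {n : ℕ} (A B : Fin n → Fin n → Bool) : ℕ :=
  (Finset.univ.filter fun p : Fin n × Fin n => A p.1 p.2 ≠ B p.1 p.2).card

/-- The normalized distance from being `H`-free. -/
noncomputable def distFree {k n : ℕ} (H : Fin k → Fin k → Bool) (A : Fin n → Fin n → Bool) : ℝ :=
  ((sInf {d : ℕ | ∃ B : Fin n → Fin n → Bool, numCopies H B = 0 ∧ d = numDiff A B} : ℕ) : ℝ) /
    (n : ℝ) ^ 2

end Vale.Agent.P037
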